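import Mathlib

/-!
Sampling lemma (multiplicative Chernoff bound in first-moment form), proved by sequential
first-moment selection: no product measures are used.
-/

namespace Vale.Agent.H73

open MeasureTheory

/-- Sequential first-moment selection: finitely many nonnegative integrable functions `h k`
with integral at most one, nonnegative weights `c k`; then for every `N` there are points
`ω 0, ..., ω (N-1)` with `∑ k, c k * ∏ i, h k (ω i) ≤ ∑ k, c k`. -/
theorem exists_seq_prod_le {Ω : Type*} [MeasurableSpace Ω] (P : Measure Ω)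
    [IsProbabilityMeasure P] {κ : Type*} [Fintype κ] (h : κ → Ω → ℝ) (c : κ → ℝ)
    (hc : ∀ k, 0 ≤ c k) (h0 : ∀ k ω, 0 ≤ h k ω)
    (hint : ∀ k, Integrable (h k) P) (h1 : ∀ k, ∫ ω, h k ω ∂P ≤ 1) (N : ℕ) :
    ∃ ω : Fin N → Ω, ∑ k, c k * ∏ i, h k (ω i) ≤ ∑ k, c k := by
  induction N with
  | zero => exact ⟨Fin.elim0, by simp⟩
  | succ N ih =>
    obtain ⟨ω, hω⟩ := ih
    have hf : Integrable (fun x => ∑ k, (c k * ∏ i, h k (ω i)) * h k x) P :=
      integrable_finsetSum _ (fun k _ => (hint k).const_mul _)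
    obtain ⟨x, hx⟩ := exists_le_integral hf
    refine ⟨Fin.cons x ω, ?_⟩
    have e1 : ∑ k, c k * ∏ i, h k ((Fin.cons x ω : Fin (N + 1) → Ω) i)
        = ∑ k, (c k * ∏ i, h k (ω i)) * h k x := by
      refine Finset.sum_congr rfl (fun k _ => ?_)
      rw [Fin.prod_univ_succ]
      simp only [Fin.cons_zero, Fin.cons_succ]
      ring
    rw [e1]
    refine hx.trans ?_
    rw [integral_finsetSum _ (fun k _ => (hint k).const_mul _)]
    refine le_trans ?_ hω
    refine Finset.sum_le_sum (fun k _ => ?_)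
    rw [integral_const_mul]
    have hnn : 0 ≤ c k * ∏ i, h k (ω i) :=
      mul_nonneg (hc k) (Finset.prod_nonneg (fun i _ => h0 k (ω i)))
    calc (c k * ∏ i, h k (ω i)) * ∫ a, h k a ∂P
        ≤ (c k * ∏ i, h k (ω i)) * 1 := mul_le_mul_of_nonneg_left (h1 k) hnn
      _ = c k * ∏ i, h k (ω i) := mul_one _

/-- Chord bound for the exponential on `[0, M]`. -/
theorem exp_chord {M s t : ℝ} (hM : 0 < M) (ht0 : 0 ≤ t) (htM : t ≤ M) :
    Real.exp (s / M * t) ≤ 1 + (Real.exp s - 1) / M * t := by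
  have h := convexOn_exp.2 (Set.mem_univ s) (Set.mem_univ (0 : ℝ))
    (show (0 : ℝ) ≤ t / M from div_nonneg ht0 hM.le)
    (show (0 : ℝ) ≤ 1 - t / M by rw [sub_nonneg, div_le_one hM]; exact htM)
    (by ring)
  simp only [smul_eq_mul, mul_zero, add_zero, Real.exp_zero, mul_one] at h
  have e1 : s / M * t = t / M * s := by ring
  have e2 : 1 + (Real.exp s - 1) / M * t = t / M * Real.exp s + (1 - t / M) := by ring
  rw [e1, e2]
  exact h

/-- Integral bound for the exponential moment of a `[0, M]`-valued function of mean one. -/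
theorem integral_exp_le {Ω : Type*} [MeasurableSpace Ω] (P : Measure Ω)
    [IsProbabilityMeasure P] (f : Ω → ℝ) (hf : Measurable f) {M s : ℝ} (hM : 0 < M)
    (h0 : ∀ᵐ ω ∂P, 0 ≤ f ω) (hM' : ∀ᵐ ω ∂P, f ω ≤ M) (hint : ∫ ω, f ω ∂P = 1) :
    Integrable (fun ω => Real.exp (s / M * f ω)) P ∧
      ∫ ω, Real.exp (s / M * f ω) ∂P ≤ 1 + (Real.exp s - 1) / M := by
  have hfi : Integrable f P := by
    by_contra hne
    rw [integral_undef hne] at hint
    exact zero_ne_one hint
  have hchord : ∀ᵐ ω ∂P, Real.exp (s / M * f ω) ≤ 1 + (Real.exp s - 1) / M * f ω := by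
    filter_upwards [h0, hM'] with ω h0ω hMω
    exact exp_chord hM h0ω hMω
  have hmeas : Measurable (fun ω => Real.exp (s / M * f ω)) :=
    Real.measurable_exp.comp (hf.const_mul _)
  have hbd : Integrable (fun ω => 1 + (Real.exp s - 1) / M * f ω) P :=
    (integrable_const 1).add (hfi.const_mul _)
  have hi : Integrable (fun ω => Real.exp (s / M * f ω)) P := by
    refine Integrable.mono' (hbd.norm) hmeas.aestronglyMeasurable ?_
    filter_upwards [hchord] with ω hω
    rw [Real.norm_eq_abs, abs_of_pos (Real.exp_pos _), Real.norm_eq_abs]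
    exact hω.trans (le_abs_self _)
  refine ⟨hi, ?_⟩
  calc ∫ ω, Real.exp (s / M * f ω) ∂P
      ≤ ∫ ω, (1 + (Real.exp s - 1) / M * f ω) ∂P := integral_mono_ae hi hbd hchord
    _ = 1 + (Real.exp s - 1) / M := by
        rw [integral_add (integrable_const 1) (hfi.const_mul _), integral_const_mul, hint]
        simp

/-- The two elementary inequalities behind the multiplicative Chernoff bound. -/
theorem chernoff_upper_aux {ε : ℝ} (hε : 0 < ε) (hε1 : ε ≤ 1) :
    ε ^ 2 / 3 ≤ (1 + ε) * Real.log (1 + ε) - ε := by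
  have h := Real.le_log_one_add_of_nonneg hε.le
  have h2 : (1 + ε) * (2 * ε / (ε + 2)) ≤ (1 + ε) * Real.log (1 + ε) :=
    mul_le_mul_of_nonneg_left h (by linarith)
  have h3 : ε ^ 2 / 3 + ε ≤ (1 + ε) * (2 * ε / (ε + 2)) := by
    rw [← mul_div_assoc, le_div_iff₀ (by linarith)]
    nlinarith [sq_nonneg ε, mul_pos hε hε]
  linarith

theorem chernoff_lower_aux {ε : ℝ} (hε : 0 ≤ ε) :
    Real.exp (-ε) ≤ 1 - ε + ε ^ 2 / 2 := by
  have h := Real.quadratic_le_exp_of_nonneg hε
  have hpos : 0 < 1 + ε + ε ^ 2 / 2 := by positivity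
  rw [Real.exp_neg, inv_le_comm₀ (Real.exp_pos _) (by nlinarith [sq_nonneg (ε - 1)])]
  refine le_trans ?_ h
  rw [inv_le_iff_one_le_mul₀ (by nlinarith [sq_nonneg (ε - 1)])]
  nlinarith [sq_nonneg (ε ^ 2), sq_nonneg ε]

/-- **Sampling lemma.** Finitely many measurable functions on a probability space with values
a.e. in `[0, M]` and mean one; if `N > 3 M log(2 card + 1) / ε²` then some `N` sample points
have all empirical means within `ε` of one. -/
theorem exists_sample {Ω : Type*} [MeasurableSpace Ω] (P : MeasureTheory.Measure Ω)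
    [MeasureTheory.IsProbabilityMeasure P] {ι : Type*} [Fintype ι] (g : ι → Ω → ℝ)
    (hg : ∀ j, Measurable (g j)) (M ε : ℝ) (hM : 1 ≤ M) (hε : 0 < ε) (hε1 : ε ≤ 1)
    (h0 : ∀ j, ∀ᵐ ω ∂P, 0 ≤ g j ω) (hM' : ∀ j, ∀ᵐ ω ∂P, g j ω ≤ M)
    (hint : ∀ j, ∫ ω, g j ω ∂P = 1) (N : ℕ)
    (hN : 3 * M * Real.log (2 * (Fintype.card ι : ℝ) + 1) / ε ^ 2 < N) :
    ∃ ω : Fin N → Ω, ∀ j, |(∑ i, g j (ω i)) / N - 1| ≤ ε := by
  have hMpos : 0 < M := by linarith
  set m : ℝ := (Fintype.card ι : ℝ) with hm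
  have hm0 : 0 ≤ m := Nat.cast_nonneg _
  set L : ℝ := Real.log (2 * m + 1) with hL
  have hL0 : 0 ≤ L := Real.log_nonneg (by linarith)
  have hNpos : (0 : ℝ) < N := by
    refine lt_of_le_of_lt ?_ hN
    positivity
  -- the two exponents
  set s₁ : ℝ := Real.log (1 + ε) with hs₁
  set s₂ : ℝ := -ε with hs₂
  have hexp1 : Real.exp s₁ = 1 + ε := Real.exp_log (by linarith)
  have hs₁pos : 0 < s₁ := Real.log_pos (by linarith)
  set α : ℝ := 1 + (Real.exp s₁ - 1) / M with hα
  set β : ℝ := 1 + (Real.exp s₂ - 1) / M with hβ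
  have hαeq : α = 1 + ε / M := by rw [hα, hexp1]; ring
  have hαpos : 0 < α := by rw [hαeq]; positivity
  have hexp2 : Real.exp s₂ ≤ 1 - ε + ε ^ 2 / 2 := chernoff_lower_aux hε.le
  have hexp2pos : 0 < Real.exp s₂ := Real.exp_pos _
  have hβpos : 0 < β := by
    rw [hβ]
    have : -1 < (Real.exp s₂ - 1) / M := by
      rw [lt_div_iff₀ hMpos]
      nlinarith
    linarith
  -- moment bounds
  have hI₁ := fun j => integral_exp_le P (g j) (hg j) (s := s₁) hMpos (h0 j) (hM' j) (hint j)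
  have hI₂ := fun j => integral_exp_le P (g j) (hg j) (s := s₂) hMpos (h0 j) (hM' j) (hint j)
  set c₁ : ℝ := α ^ N * Real.exp (-(s₁ / M) * ((1 + ε) * N)) with hc₁
  set c₂ : ℝ := β ^ N * Real.exp (-(s₂ / M) * ((1 - ε) * N)) with hc₂
  have hc₁pos : 0 < c₁ := by rw [hc₁]; positivity
  have hc₂pos : 0 < c₂ := by rw [hc₂]; positivity
  obtain ⟨ω, hω⟩ := exists_seq_prod_le P
    (Sum.elim (fun j ω => Real.exp (s₁ / M * g j ω) / α)
      (fun j ω => Real.exp (s₂ / M * g j ω) / β))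
    (Sum.elim (fun _ : ι => c₁) (fun _ : ι => c₂))
    (by rintro (j | j) <;> simp [hc₁pos.le, hc₂pos.le])
    (by
      rintro (j | j) x
      · simp only [Sum.elim_inl]; positivity
      · simp only [Sum.elim_inr]; positivity)
    (by
      rintro (j | j)
      · simpa only [Sum.elim_inl] using (hI₁ j).1.div_const α
      · simpa only [Sum.elim_inr] using (hI₂ j).1.div_const β)
    (by
      rintro (j | j)
      · simp only [Sum.elim_inl]
        rw [integral_div, div_le_one hαpos]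
        exact (hI₁ j).2
      · simp only [Sum.elim_inr]
        rw [integral_div, div_le_one hβpos]
        exact (hI₂ j).2)
    N
  rw [Fintype.sum_sum_type, Fintype.sum_sum_type] at hω
  simp only [Sum.elim_inl, Sum.elim_inr, Finset.sum_const, Finset.card_univ, nsmul_eq_mul] at hω
  -- rewrite the two kinds of terms
  have hprod : ∀ (s γ : ℝ) (j : ι), ∏ i, (Real.exp (s / M * g j (ω i)) / γ)
      = Real.exp (s / M * ∑ i, g j (ω i)) / γ ^ N := by
    intro s γ j
    rw [Finset.prod_div_distrib, Finset.prod_const, Finset.card_univ, Fintype.card_fin,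
      ← Real.exp_sum, ← Finset.mul_sum]
  have hT₁ : ∀ j, c₁ * ∏ i, (Real.exp (s₁ / M * g j (ω i)) / α)
      = Real.exp (s₁ / M * (∑ i, g j (ω i) - (1 + ε) * N)) := by
    intro j
    have hαN : α ^ N ≠ 0 := (pow_pos hαpos N).ne'
    have e : Real.exp (s₁ / M * (∑ i, g j (ω i) - (1 + ε) * N))
        = Real.exp (-(s₁ / M) * ((1 + ε) * N)) * Real.exp (s₁ / M * ∑ i, g j (ω i)) := by
      rw [← Real.exp_add]; congr 1; ring
    rw [hprod, hc₁, e]
    field_simp
  have hT₂ : ∀ j, c₂ * ∏ i, (Real.exp (s₂ / M * g j (ω i)) / β)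
      = Real.exp (s₂ / M * (∑ i, g j (ω i) - (1 - ε) * N)) := by
    intro j
    have hβN : β ^ N ≠ 0 := (pow_pos hβpos N).ne'
    have e : Real.exp (s₂ / M * (∑ i, g j (ω i) - (1 - ε) * N))
        = Real.exp (-(s₂ / M) * ((1 - ε) * N)) * Real.exp (s₂ / M * ∑ i, g j (ω i)) := by
      rw [← Real.exp_add]; congr 1; ring
    rw [hprod, hc₂, e]
    field_simp
  simp only [hT₁, hT₂] at hω
  -- bound on the constants
  have hx : Real.exp (-(N * ε ^ 2 / (3 * M))) < 1 / (2 * m + 1) := by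
    have h1 : L < N * ε ^ 2 / (3 * M) := by
      rw [lt_div_iff₀ (by positivity)]
      rw [div_lt_iff₀ (by positivity)] at hN
      linarith
    have h2 : Real.exp (-(N * ε ^ 2 / (3 * M))) < Real.exp (-L) :=
      Real.exp_lt_exp.mpr (by linarith)
    have h3 : Real.exp (-L) = 1 / (2 * m + 1) := by
      rw [Real.exp_neg, hL, Real.exp_log (by linarith), one_div]
    rw [← h3]
    exact h2
  have hc₁le : c₁ ≤ Real.exp (-(N * ε ^ 2 / (3 * M))) := by
    have h1 : α ^ N ≤ Real.exp (ε / M * N) := by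
      have : α ≤ Real.exp (ε / M) := by
        rw [hαeq]; linarith [Real.add_one_le_exp (ε / M)]
      calc α ^ N ≤ Real.exp (ε / M) ^ N := pow_le_pow_left₀ hαpos.le this N
        _ = Real.exp (ε / M * N) := by rw [← Real.exp_nat_mul]; ring_nf
    calc c₁ ≤ Real.exp (ε / M * N) * Real.exp (-(s₁ / M) * ((1 + ε) * N)) :=
          mul_le_mul_of_nonneg_right h1 (Real.exp_pos _).le
      _ = Real.exp (-(N / M * ((1 + ε) * s₁ - ε))) := by
          rw [← Real.exp_add]; congr 1; ring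
      _ ≤ Real.exp (-(N * ε ^ 2 / (3 * M))) := by
          apply Real.exp_le_exp.mpr
          have h3 := chernoff_upper_aux hε hε1
          have h4 : N / M * (ε ^ 2 / 3) ≤ N / M * ((1 + ε) * s₁ - ε) :=
            mul_le_mul_of_nonneg_left h3 (by positivity)
          have h5 : N / M * (ε ^ 2 / 3) = N * ε ^ 2 / (3 * M) := by ring
          linarith
  have hc₂le : c₂ ≤ Real.exp (-(N * ε ^ 2 / (3 * M))) := by
    have h1 : β ^ N ≤ Real.exp ((Real.exp s₂ - 1) / M * N) := by
      have : β ≤ Real.exp ((Real.exp s₂ - 1) / M) := by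
        rw [hβ]; linarith [Real.add_one_le_exp ((Real.exp s₂ - 1) / M)]
      calc β ^ N ≤ Real.exp ((Real.exp s₂ - 1) / M) ^ N := pow_le_pow_left₀ hβpos.le this N
        _ = Real.exp ((Real.exp s₂ - 1) / M * N) := by rw [← Real.exp_nat_mul]; ring_nf
    calc c₂ ≤ Real.exp ((Real.exp s₂ - 1) / M * N) * Real.exp (-(s₂ / M) * ((1 - ε) * N)) :=
          mul_le_mul_of_nonneg_right h1 (Real.exp_pos _).le
      _ = Real.exp (-(N / M * (1 - Real.exp s₂ - ε * (1 - ε)))) := by
          rw [← Real.exp_add]; congr 1; rw [hs₂]; ring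
      _ ≤ Real.exp (-(N * ε ^ 2 / (3 * M))) := by
          apply Real.exp_le_exp.mpr
          have h3 : ε ^ 2 / 3 ≤ 1 - Real.exp s₂ - ε * (1 - ε) := by nlinarith [sq_nonneg ε]
          have h4 : N / M * (ε ^ 2 / 3) ≤ N / M * (1 - Real.exp s₂ - ε * (1 - ε)) :=
            mul_le_mul_of_nonneg_left h3 (by positivity)
          have h5 : N / M * (ε ^ 2 / 3) = N * ε ^ 2 / (3 * M) := by ring
          linarith
  have htot : m * c₁ + m * c₂ < 1 := by
    have h1 : m * c₁ + m * c₂ ≤ 2 * m * Real.exp (-(N * ε ^ 2 / (3 * M))) := by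
      nlinarith [mul_le_mul_of_nonneg_left hc₁le hm0, mul_le_mul_of_nonneg_left hc₂le hm0]
    have h2 : 2 * m * Real.exp (-(N * ε ^ 2 / (3 * M))) ≤ 2 * m * (1 / (2 * m + 1)) :=
      mul_le_mul_of_nonneg_left hx.le (by positivity)
    have h3 : 2 * m * (1 / (2 * m + 1)) < 1 := by
      rw [mul_one_div, div_lt_one (by positivity)]
      linarith
    linarith
  refine ⟨ω, fun j => ?_⟩
  set S : ℝ := ∑ i, g j (ω i) with hS
  have hsum₁ : Real.exp (s₁ / M * (S - (1 + ε) * N))
      ≤ ∑ j, Real.exp (s₁ / M * (∑ i, g j (ω i) - (1 + ε) * N)) :=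
    Finset.single_le_sum (f := fun j => Real.exp (s₁ / M * (∑ i, g j (ω i) - (1 + ε) * N)))
      (fun j _ => (Real.exp_pos _).le) (Finset.mem_univ j)
  have hsum₂ : Real.exp (s₂ / M * (S - (1 - ε) * N))
      ≤ ∑ j, Real.exp (s₂ / M * (∑ i, g j (ω i) - (1 - ε) * N)) :=
    Finset.single_le_sum (f := fun j => Real.exp (s₂ / M * (∑ i, g j (ω i) - (1 - ε) * N)))
      (fun j _ => (Real.exp_pos _).le) (Finset.mem_univ j)
  have hnn₁ : 0 ≤ ∑ j, Real.exp (s₁ / M * (∑ i, g j (ω i) - (1 + ε) * N)) :=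
    Finset.sum_nonneg (fun j _ => (Real.exp_pos _).le)
  have hnn₂ : 0 ≤ ∑ j, Real.exp (s₂ / M * (∑ i, g j (ω i) - (1 - ε) * N)) :=
    Finset.sum_nonneg (fun j _ => (Real.exp_pos _).le)
  have hlt₁ : Real.exp (s₁ / M * (S - (1 + ε) * N)) < 1 := by linarith
  have hlt₂ : Real.exp (s₂ / M * (S - (1 - ε) * N)) < 1 := by linarith
  rw [Real.exp_lt_one_iff] at hlt₁ hlt₂
  have hup : S < (1 + ε) * N := by
    by_contra hcon
    rw [not_lt] at hcon
    have : 0 ≤ s₁ / M * (S - (1 + ε) * N) :=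
      mul_nonneg (div_nonneg hs₁pos.le hMpos.le) (by linarith)
    linarith
  have hlo : (1 - ε) * N < S := by
    by_contra hcon
    rw [not_lt] at hcon
    have : 0 ≤ s₂ / M * (S - (1 - ε) * N) := by
      have h1 : s₂ / M ≤ 0 := div_nonpos_of_nonpos_of_nonneg (by rw [hs₂]; linarith) hMpos.le
      exact mul_nonneg_of_nonpos_of_nonpos h1 (by linarith)
    linarith
  rw [abs_le]
  constructor
  · rw [le_sub_iff_add_le, le_div_iff₀ hNpos]
    linarith
  · rw [sub_le_iff_le_add, div_le_iff₀ hNpos]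
    linarith

end Vale.Agent.H73
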