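import Mathlib

/-!
# Short Egyptian fractions: range-restricted divisor sums

`Rep M Z T` says that every `y < Z` is a sum of at most `T` distinct divisors of `M`
(the range `Z` may be much smaller than `M`). This file has the binary base case and the
tower step, which multiplies both the modulus and the range by a new factor `Q`.
-/

namespace Vale.Agent.H73

open Finset

/-- every `y < Z` is a sum of at most `T` distinct divisors of `M` -/
def Rep (M Z T : ℕ) : Prop :=
  ∀ y < Z, ∃ D : Finset ℕ, D ⊆ M.divisors ∧ D.card ≤ T ∧ ∑ d ∈ D, d = y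

theorem Rep.mono {M Z Z' T T' : ℕ} (h : Rep M Z T) (hZ : Z' ≤ Z) (hT : T ≤ T') :
    Rep M Z' T' := by
  intro y hy
  obtain ⟨D, hD, hDc, hDs⟩ := h y (lt_of_lt_of_le hy hZ)
  exact ⟨D, hD, hDc.trans hT, hDs⟩

/-- binary base case: every `y < 2 ^ e` is a sum of at most `e` distinct powers of two -/
theorem rep_base (R : ℕ) (hR : 0 < R) (e : ℕ) : Rep (R * 2 ^ e) (2 ^ e) e := by
  induction e with
  | zero =>
    intro y hy
    have hy0 : y = 0 := by
      rw [pow_zero] at hy
      omega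
    subst hy0
    exact ⟨∅, by simp, by simp, by simp⟩
  | succ e ih =>
    intro y hy
    have hpos : 0 < 2 ^ e := Nat.pos_of_ne_zero (by positivity)
    have hne : R * 2 ^ (e + 1) ≠ 0 := by positivity
    have hdiv : ∀ d, d ∈ (R * 2 ^ e).divisors → d ∈ (R * 2 ^ (e + 1)).divisors := by
      intro d hd
      rw [Nat.mem_divisors] at hd ⊢
      refine ⟨?_, hne⟩
      rw [pow_succ, ← mul_assoc]
      exact hd.1.mul_right 2
    have hy' : y < 2 ^ e + 2 ^ e := by
      rw [pow_succ] at hy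
      omega
    by_cases hlt : y < 2 ^ e
    · obtain ⟨D, hD, hDc, hDs⟩ := ih y hlt
      exact ⟨D, fun d hd => hdiv d (hD hd), by omega, hDs⟩
    · obtain ⟨D, hD, hDc, hDs⟩ := ih (y - 2 ^ e) (by omega)
      have hnot : 2 ^ e ∉ D := by
        intro hmem
        have h1 : 2 ^ e ≤ ∑ d ∈ D, d :=
          Finset.single_le_sum (f := fun x => x) (fun _ _ => Nat.zero_le _) hmem
        omega
      refine ⟨insert (2 ^ e) D, ?_, ?_, ?_⟩
      · intro d hd
        rw [Finset.mem_insert] at hd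
        rcases hd with rfl | hd
        · rw [Nat.mem_divisors]
          refine ⟨?_, hne⟩
          rw [pow_succ, ← mul_assoc]
          exact Dvd.dvd.mul_right (dvd_mul_left _ _) 2
        · exact hdiv d (hD hd)
      · rw [Finset.card_insert_of_notMem hnot]
        omega
      · rw [Finset.sum_insert hnot, hDs]
        omega

/-- tower step: if every residue mod `Q` is a sum, below the range `Z`, of at most four distinct
divisors of `M` none of which is a multiple of `Q`, then modulus and range both gain the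
factor `Q` at the cost of four more divisors -/
theorem rep_mul {M Z Q T : ℕ} (hM : Rep M Z T) (hQ : 0 < Q)
    (hcov : ∀ r : ℕ, ∃ D : Finset ℕ, D ⊆ M.divisors ∧ D.card ≤ 4 ∧ (∀ d ∈ D, ¬ Q ∣ d) ∧
        ∑ d ∈ D, d < Z ∧ (∑ d ∈ D, d) % Q = r % Q) :
    Rep (M * Q) (Z * Q) (T + 4) := by
  intro y hy
  have hdiv : ∀ d, d ∈ M.divisors → d ∈ (M * Q).divisors := by
    intro d hd
    rw [Nat.mem_divisors] at hd ⊢
    exact ⟨hd.1.mul_right Q, Nat.mul_ne_zero hd.2 hQ.ne'⟩
  by_cases hyZ : y < Z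
  · obtain ⟨D, hD, hDc, hDs⟩ := hM y hyZ
    exact ⟨D, fun d hd => hdiv d (hD hd), by omega, hDs⟩
  · obtain ⟨D, hD, hDc, hDQ, hDlt, hDmod⟩ := hcov y
    have hle : ∑ d ∈ D, d ≤ y := by omega
    have hdvd : Q ∣ y - ∑ d ∈ D, d := (Nat.modEq_iff_dvd' hle).mp hDmod
    obtain ⟨y', hy'⟩ := hdvd
    have hy'Z : y' < Z := by
      have h1 : Q * y' < Q * Z := by
        rw [← hy', mul_comm Q Z]
        omega
      exact Nat.lt_of_mul_lt_mul_left h1
    obtain ⟨D', hD', hD'c, hD's⟩ := hM y' hy'Z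
    have hdisj : Disjoint D (D'.image (fun d => Q * d)) := by
      rw [Finset.disjoint_left]
      intro d hd hd'
      rw [Finset.mem_image] at hd'
      obtain ⟨e, _, rfl⟩ := hd'
      exact hDQ _ hd (dvd_mul_right Q e)
    have hinj : Set.InjOn (fun d => Q * d) (D' : Set ℕ) := by
      intro x _ z _ hxz
      exact Nat.eq_of_mul_eq_mul_left hQ hxz
    refine ⟨D ∪ D'.image (fun d => Q * d), ?_, ?_, ?_⟩
    · intro d hd
      rw [Finset.mem_union] at hd
      rcases hd with hd | hd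
      · exact hdiv d (hD hd)
      · rw [Finset.mem_image] at hd
        obtain ⟨e, he, rfl⟩ := hd
        have h1 := hD' he
        rw [Nat.mem_divisors] at h1 ⊢
        refine ⟨?_, Nat.mul_ne_zero h1.2 hQ.ne'⟩
        rw [mul_comm M Q]
        exact Nat.mul_dvd_mul_left Q h1.1
    · rw [Finset.card_union_of_disjoint hdisj, Finset.card_image_of_injOn hinj]
      omega
    · rw [Finset.sum_union hdisj, Finset.sum_image hinj, ← Finset.mul_sum, hD's, ← hy']
      omega

/-- iterating the tower step with the same factor -/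
theorem rep_mul_pow {M Z Q T : ℕ} (hM : Rep M Z T) (hQ : 0 < Q)
    (hcov : ∀ r : ℕ, ∃ D : Finset ℕ, D ⊆ M.divisors ∧ D.card ≤ 4 ∧ (∀ d ∈ D, ¬ Q ∣ d) ∧
        ∑ d ∈ D, d < Z ∧ (∑ d ∈ D, d) % Q = r % Q) (m : ℕ) :
    Rep (M * Q ^ m) (Z * Q ^ m) (T + 4 * m) := by
  induction m with
  | zero => simpa using hM
  | succ m ih =>
    have hQm : 0 < Q ^ m := Nat.pos_of_ne_zero (by positivity)
    have hcov' : ∀ r : ℕ, ∃ D : Finset ℕ, D ⊆ (M * Q ^ m).divisors ∧ D.card ≤ 4 ∧
        (∀ d ∈ D, ¬ Q ∣ d) ∧ ∑ d ∈ D, d < Z * Q ^ m ∧ (∑ d ∈ D, d) % Q = r % Q := by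
      intro r
      obtain ⟨D, hD, hDc, hDQ, hDlt, hDmod⟩ := hcov r
      refine ⟨D, ?_, hDc, hDQ, ?_, hDmod⟩
      · intro d hd
        have h1 := hD hd
        rw [Nat.mem_divisors] at h1 ⊢
        exact ⟨h1.1.mul_right _, Nat.mul_ne_zero h1.2 hQm.ne'⟩
      · calc ∑ d ∈ D, d < Z := hDlt
          _ = Z * 1 := (mul_one Z).symm
          _ ≤ Z * Q ^ m := Nat.mul_le_mul_left Z hQm
    have h := rep_mul ih hQ hcov'
    have e1 : M * Q ^ (m + 1) = M * Q ^ m * Q := by rw [pow_succ, mul_assoc]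
    have e2 : Z * Q ^ (m + 1) = Z * Q ^ m * Q := by rw [pow_succ, mul_assoc]
    have e3 : T + 4 * (m + 1) = T + 4 * m + 4 := by ring
    rw [e1, e2, e3]
    exact h

end Vale.Agent.H73
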