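import Mathlib
import Vale.Agent.H73.EgyRep
import Vale.Agent.H73.EgyDeps.H78EgyLevel
import Vale.Agent.H73.EgyDeps.H32EgyNumerics

/-!
# Short Egyptian fractions: the schedule of the tower

The rich part `G = 210 * N ^ 2` is fixed (`N` a product of `2 ^ w` primes between `2 ^ w` and
`2 ^ (2 * w)`); the range grows from `2 ^ (512 * w + 5)` to `2 ^ (9 * w * 2 ^ w + 5)` in
`O(w log w)` covering levels.
-/

namespace Vale.Agent.H73

open Finset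

/-- tower state: some range `Z ≥ 2 ^ z` such that every `y < Z` is a sum of at most `T`
distinct divisors of `G * Z` -/
def St (G z T : ℕ) : Prop := ∃ Z : ℕ, 2 ^ z ≤ Z ∧ Rep (G * Z) Z T

theorem St.mono {G z z' T T' : ℕ} (h : St G z T) (hz : z' ≤ z) (hT : T ≤ T') : St G z' T' := by
  obtain ⟨Z, hZ, hrep⟩ := h
  exact ⟨Z, (Nat.pow_le_pow_right (by norm_num) hz).trans hZ, hrep.mono le_rfl hT⟩

theorem st_base (G : ℕ) (hG : 0 < G) (e : ℕ) : St G e e :=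
  ⟨2 ^ e, le_rfl, rep_base G hG e⟩

/-- `m` covering levels with the same modulus -/
theorem st_level {G z T x g : ℕ} (hG : 0 < G) (h : St G z T) (hxz : x ≤ z)
    (hlev : ∃ Q : ℕ, 2 ^ g ≤ Q ∧ ∀ r : ℕ, ∃ D : Finset ℕ, (∀ d ∈ D, d ∣ G) ∧ D.card ≤ 4 ∧
      (∀ d ∈ D, ¬ Q ∣ d) ∧ ∑ d ∈ D, d < 2 ^ x ∧ (∑ d ∈ D, d) % Q = r % Q) (m : ℕ) :
    St G (z + m * g) (T + 4 * m) := by
  obtain ⟨Z, hZ, hrep⟩ := h
  obtain ⟨Q, hQ, hcov⟩ := hlev
  have hQpos : 0 < Q := lt_of_lt_of_le (Nat.pos_of_ne_zero (by positivity)) hQ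
  have hZpos : 0 < Z := lt_of_lt_of_le (Nat.pos_of_ne_zero (by positivity)) hZ
  have hcov' : ∀ r : ℕ, ∃ D : Finset ℕ, D ⊆ (G * Z).divisors ∧ D.card ≤ 4 ∧
      (∀ d ∈ D, ¬ Q ∣ d) ∧ ∑ d ∈ D, d < Z ∧ (∑ d ∈ D, d) % Q = r % Q := by
    intro r
    obtain ⟨D, hD, hDc, hDQ, hDlt, hDmod⟩ := hcov r
    refine ⟨D, ?_, hDc, hDQ, ?_, hDmod⟩
    · intro d hd
      rw [Nat.mem_divisors]
      exact ⟨(hD d hd).mul_right Z, Nat.mul_ne_zero hG.ne' hZpos.ne'⟩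
    · calc ∑ d ∈ D, d < 2 ^ x := hDlt
        _ ≤ 2 ^ z := Nat.pow_le_pow_right (by norm_num) hxz
        _ ≤ Z := hZ
  have h1 := rep_mul_pow hrep hQpos hcov' m
  refine ⟨Z * Q ^ m, ?_, ?_⟩
  · calc 2 ^ (z + m * g) = 2 ^ z * (2 ^ g) ^ m := by rw [pow_add, mul_comm m g, pow_mul]
      _ ≤ Z * Q ^ m := Nat.mul_le_mul hZ (Nat.pow_le_pow_left hQ m)
  · rw [← mul_assoc]
    exact h1

section Tower

variable (w : ℕ) (Pr : Finset ℕ)

/-- one phase: the range exponent `4 * w * 2 ^ (w - i) + 5` doubles (up to the `+ 5`) in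
`14 * w / i + 1` levels -/
theorem st_phase (hPr : ∀ p ∈ Pr, p.Prime ∧ 2 ^ w < p ∧ p ≤ 2 ^ (2 * w))
    (hcard : Pr.card = 2 ^ w) (hw : 32 ≤ w) (i T : ℕ) (hi1 : 1 ≤ i) (hi : i + 7 ≤ w)
    (h : St (210 * (∏ p ∈ Pr, p) ^ 2) (4 * w * 2 ^ (w - i) + 5) T) :
    St (210 * (∏ p ∈ Pr, p) ^ 2) (4 * w * 2 ^ (w - i + 1) + 5) (T + 4 * (14 * w / i + 1)) := by
  have hGpos : 0 < 210 * (∏ p ∈ Pr, p) ^ 2 := by
    have : 0 < ∏ p ∈ Pr, p := Finset.prod_pos (fun p hp => (hPr p hp).1.pos)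
    positivity
  obtain ⟨hk1, hcount, hsmall, hsupply, hcnt, -⟩ :=
    Vale.Agent.H73.D32.level_numerics w i (i * 2 ^ (w - i) / (28 * w)) hw hi1 hi rfl
  rw [← hcard] at hcount
  have hlev := Vale.Agent.H73.D78.cover_level w (16 * w) (28 * w) (2 ^ (w - i))
    (i * 2 ^ (w - i) / (28 * w)) Pr hPr (by omega) (by omega) hk1 hcount hsmall hsupply
  have h2 := st_level hGpos h le_rfl hlev (14 * w / i + 1)
  refine h2.mono ?_ le_rfl
  have e : 2 ^ (w - i + 1) = 2 * 2 ^ (w - i) := by rw [pow_succ, mul_comm]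
  rw [e]
  have e2 : 4 * w * (2 * 2 ^ (w - i)) = 4 * w * 2 ^ (w - i) + 4 * w * 2 ^ (w - i) := by ring
  omega

/-- all phases from `i` down to `1` -/
theorem st_phases (hPr : ∀ p ∈ Pr, p.Prime ∧ 2 ^ w < p ∧ p ≤ 2 ^ (2 * w))
    (hcard : Pr.card = 2 ^ w) (hw : 32 ≤ w) :
    ∀ i : ℕ, i + 7 ≤ w → ∀ T : ℕ,
      St (210 * (∏ p ∈ Pr, p) ^ 2) (4 * w * 2 ^ (w - i) + 5) T →
      St (210 * (∏ p ∈ Pr, p) ^ 2) (4 * w * 2 ^ w + 5)
        (T + 4 * ∑ j ∈ Finset.range i, (14 * w / (j + 1) + 1)) := by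
  intro i
  induction i with
  | zero =>
    intro _ T h
    simpa using h
  | succ i ih =>
    intro hi T h
    have h1 := st_phase w Pr hPr hcard hw (i + 1) T (by omega) hi h
    have e : w - (i + 1) + 1 = w - i := by omega
    rw [e] at h1
    have h2 := ih (by omega) _ h1
    refine h2.mono le_rfl ?_
    rw [Finset.sum_range_succ]
    omega

/-- the top phase: `35 * w` more levels with `i = 1` -/
theorem st_top (hPr : ∀ p ∈ Pr, p.Prime ∧ 2 ^ w < p ∧ p ≤ 2 ^ (2 * w))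
    (hcard : Pr.card = 2 ^ w) (hw : 32 ≤ w) (T : ℕ)
    (h : St (210 * (∏ p ∈ Pr, p) ^ 2) (4 * w * 2 ^ w + 5) T) :
    St (210 * (∏ p ∈ Pr, p) ^ 2) (9 * w * 2 ^ w + 5) (T + 4 * (35 * w)) := by
  have hGpos : 0 < 210 * (∏ p ∈ Pr, p) ^ 2 := by
    have : 0 < ∏ p ∈ Pr, p := Finset.prod_pos (fun p hp => (hPr p hp).1.pos)
    positivity
  obtain ⟨hk1, hcount, hsmall, hsupply, -, htop⟩ :=
    Vale.Agent.H73.D32.level_numerics w 1 (1 * 2 ^ (w - 1) / (28 * w)) hw le_rfl (by omega) rfl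
  rw [← hcard] at hcount
  have hlev := Vale.Agent.H73.D78.cover_level w (16 * w) (28 * w) (2 ^ (w - 1))
    (1 * 2 ^ (w - 1) / (28 * w)) Pr hPr (by omega) (by omega) hk1 hcount hsmall hsupply
  have hx : 4 * w * 2 ^ (w - 1) + 5 ≤ 4 * w * 2 ^ w + 5 := by
    have : 2 ^ (w - 1) ≤ 2 ^ w := Nat.pow_le_pow_right (by norm_num) (by omega)
    have := Nat.mul_le_mul_left (4 * w) this
    omega
  have h2 := st_level hGpos h hx hlev (35 * w)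
  refine h2.mono ?_ le_rfl
  have h3 := htop rfl
  have e : 9 * w * 2 ^ w = 4 * w * 2 ^ w + 5 * w * 2 ^ w := by ring
  omega

/-- the whole tower -/
theorem st_final (hPr : ∀ p ∈ Pr, p.Prime ∧ 2 ^ w < p ∧ p ≤ 2 ^ (2 * w))
    (hcard : Pr.card = 2 ^ w) (hw : 32 ≤ w) :
    St (210 * (∏ p ∈ Pr, p) ^ 2) (9 * w * 2 ^ w + 5)
      (652 * w + 5 + 4 * ∑ j ∈ Finset.range (w - 7), (14 * w / (j + 1) + 1)) := by
  have hGpos : 0 < 210 * (∏ p ∈ Pr, p) ^ 2 := by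
    have : 0 < ∏ p ∈ Pr, p := Finset.prod_pos (fun p hp => (hPr p hp).1.pos)
    positivity
  have h0 : St (210 * (∏ p ∈ Pr, p) ^ 2) (4 * w * 2 ^ (w - (w - 7)) + 5) (512 * w + 5) := by
    have e : w - (w - 7) = 7 := by omega
    rw [e]
    have h := st_base (210 * (∏ p ∈ Pr, p) ^ 2) hGpos (512 * w + 5)
    refine h.mono ?_ le_rfl
    norm_num
    omega
  have h1 := st_phases w Pr hPr hcard hw (w - 7) (by omega) _ h0
  have h2 := st_top w Pr hPr hcard hw _ h1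
  refine h2.mono le_rfl ?_
  omega

end Tower

end Vale.Agent.H73
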