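import Mathlib
import Vale.Agent.H73.EgySchedule
import Vale.Agent.H73.EgyDeps.H79EgyPrimes
import Vale.Agent.H73.EgyDeps.H28EgyFinalStep
import Vale.Agent.H73.EgyDeps.H41EgyEndgame2

/-!
# Short Egyptian fractions: `N(b) ≤ C (log log b) (log log log b)`
-/

namespace Vale.Agent.H73

open Finset

/-- there are `2 ^ w` primes between `2 ^ w` and `2 ^ (2 * w)` -/
theorem exists_rich_primes (w : ℕ) (hw : 32 ≤ w) :
    ∃ Pr : Finset ℕ, (∀ p ∈ Pr, p.Prime ∧ 2 ^ w < p ∧ p ≤ 2 ^ (2 * w)) ∧ Pr.card = 2 ^ w := by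
  have hsup := Vale.Agent.H73.D79.card_primes_Ioc w (by omega)
  set P := (Finset.Ioc (2 ^ w) (2 ^ (2 * w))).filter Nat.Prime with hP
  have hcard : 2 ^ w ≤ P.card := by
    by_contra hlt
    have hlt' : P.card + 1 ≤ 2 ^ w := by omega
    have h8 : 8 * w ≤ 2 ^ w := by
      have h1 : ∀ n : ℕ, 6 ≤ n → 8 * n ≤ 2 ^ n := by
        intro n hn
        induction n, hn using Nat.le_induction with
        | base => norm_num
        | succ n hn ih =>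
          rw [pow_succ]
          omega
      exact h1 w (by omega)
    have h1 : 2 * w * (P.card + 2 ^ w + 2) ≤ 2 * w * (2 * 2 ^ w + 1) :=
      Nat.mul_le_mul_left _ (by omega)
    have h2 : 2 ^ (2 * w) = 2 ^ w * 2 ^ w := by rw [two_mul, pow_add]
    have hpos : 0 < 2 ^ w := Nat.pos_of_ne_zero (by positivity)
    have h3 : 2 * w * (2 * 2 ^ w + 1) < 2 ^ w * 2 ^ w := by
      have h4 : 8 * w * 2 ^ w ≤ 2 ^ w * 2 ^ w := Nat.mul_le_mul_right _ h8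
      have h5 : 2 * w < 2 * w * 2 ^ w + 1 := by nlinarith
      nlinarith
    omega
  obtain ⟨Pr, hPrP, hPrcard⟩ := Finset.exists_subset_card_eq hcard
  refine ⟨Pr, ?_, hPrcard⟩
  intro p hp
  have h1 := Finset.mem_filter.mp (hPrP hp)
  have h2 := Finset.mem_Ioc.mp h1.1
  exact ⟨h1.2, h2.1, h2.2⟩

/-- explicit count: `a / b` is a sum of at most `1306 w + 15 + 8 Σ_{j < w - 7} (14 w / (j+1) + 1)`
distinct unit fractions, `w = max 32 (clog 2 (clog 2 b))` -/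
theorem egypt_count (a b : ℕ) (ha : 0 < a) (hab : a < b) :
    ∃ S : Finset ℕ, (∀ n ∈ S, 2 ≤ n) ∧ ∑ n ∈ S, (1 : ℚ) / (n : ℚ) = (a : ℚ) / (b : ℚ) ∧
      S.card ≤ 1306 * max 32 (Nat.clog 2 (Nat.clog 2 b)) + 15 +
        8 * ∑ j ∈ Finset.range (max 32 (Nat.clog 2 (Nat.clog 2 b)) - 7),
          (14 * max 32 (Nat.clog 2 (Nat.clog 2 b)) / (j + 1) + 1) := by
  set w := max 32 (Nat.clog 2 (Nat.clog 2 b)) with hwdef
  have hw : 32 ≤ w := le_max_left _ _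
  have hwb : Nat.clog 2 (Nat.clog 2 b) ≤ w := le_max_right _ _
  obtain ⟨Pr, hPr, hPrcard⟩ := exists_rich_primes w hw
  obtain ⟨Z, hZ, hrep⟩ := st_final w Pr hPr hPrcard hw
  set N := ∏ p ∈ Pr, p with hN
  have hNpos : 0 < N := Finset.prod_pos (fun p hp => (hPr p hp).1.pos)
  have hNle : N ≤ 2 ^ (2 * w * 2 ^ w) := by
    calc N ≤ (2 ^ (2 * w)) ^ Pr.card :=
          Finset.prod_le_pow_card Pr (fun p => p) _ (fun p hp => (hPr p hp).2.2)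
      _ = 2 ^ (2 * w * 2 ^ w) := by rw [hPrcard, ← pow_mul]
  have hb : b ≤ 2 ^ (2 ^ w) := by
    calc b ≤ 2 ^ Nat.clog 2 b := Nat.le_pow_clog (by norm_num) b
      _ ≤ 2 ^ (2 ^ w) := by
        apply Nat.pow_le_pow_right (by norm_num)
        calc Nat.clog 2 b ≤ 2 ^ Nat.clog 2 (Nat.clog 2 b) := Nat.le_pow_clog (by norm_num) _
          _ ≤ 2 ^ w := Nat.pow_le_pow_right (by norm_num) hwb
  have hG2 : 2 ≤ 210 * N ^ 2 := by nlinarith
  -- size of `G * b`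
  have hGb : 210 * N ^ 2 * b ≤ 2 ^ (8 + 4 * w * 2 ^ w + 2 ^ w) := by
    calc 210 * N ^ 2 * b ≤ 2 ^ 8 * (2 ^ (2 * w * 2 ^ w)) ^ 2 * 2 ^ (2 ^ w) :=
          Nat.mul_le_mul (Nat.mul_le_mul (by norm_num) (Nat.pow_le_pow_left hNle 2)) hb
      _ = 2 ^ (8 + 4 * w * 2 ^ w + 2 ^ w) := by
          rw [← pow_mul, ← pow_add, ← pow_add]
          congr 1
          ring
  have hwlt : w < 2 ^ w := Nat.lt_two_pow_self
  have hpw : 32 ≤ 2 ^ w := by omega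
  have hk : 210 * N ^ 2 * b ≤ 2 ^ 2 ^ (2 * w + 3) := by
    refine hGb.trans (Nat.pow_le_pow_right (by norm_num) ?_)
    have e : 2 ^ (2 * w + 3) = 8 * (2 ^ w * 2 ^ w) := by
      rw [pow_add, two_mul, pow_add]
      ring
    rw [e]
    nlinarith
  have hZ2 : (210 * N ^ 2 * b) ^ 2 ≤ Z := by
    calc (210 * N ^ 2 * b) ^ 2 ≤ (2 ^ (8 + 4 * w * 2 ^ w + 2 ^ w)) ^ 2 :=
          Nat.pow_le_pow_left hGb 2
      _ = 2 ^ ((8 + 4 * w * 2 ^ w + 2 ^ w) * 2) := by rw [← pow_mul]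
      _ ≤ 2 ^ (9 * w * 2 ^ w + 5) := by
          apply Nat.pow_le_pow_right (by norm_num)
          nlinarith
      _ ≤ Z := hZ
  obtain ⟨S, hS2, hScard, hSsum⟩ := Vale.Agent.H73.D28.egypt_of_rep (M := 210 * N ^ 2 * Z)
    (G := 210 * N ^ 2) (k := 2 * w + 3) hrep rfl hG2 ha hab hk hZ2
  refine ⟨S, hS2, hSsum, ?_⟩
  omega

/-- the main bound: `N(b) ≤ C (log log b) (log log log b)` for `b ≥ 16` -/
theorem egypt_loglog_logloglog : ∃ C : ℝ, ∀ a b : ℕ, 0 < a → a < b → 16 ≤ b →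
    ∃ S : Finset ℕ, (∀ n ∈ S, 2 ≤ n) ∧ ∑ n ∈ S, (1 : ℚ) / (n : ℚ) = (a : ℚ) / (b : ℚ) ∧
      (S.card : ℝ) ≤ C * Real.log (Real.log (b : ℝ)) * Real.log (Real.log (Real.log (b : ℝ))) := by
  obtain ⟨C, hC⟩ := Vale.Agent.H73.D41.endgame_lll 1427 32
  refine ⟨C, ?_⟩
  intro a b ha hab hb16
  obtain ⟨S, hS2, hSsum, hScard⟩ := egypt_count a b ha hab
  refine ⟨S, hS2, hSsum, ?_⟩
  set w := max 32 (Nat.clog 2 (Nat.clog 2 b)) with hwdef
  have hw : 32 ≤ w := le_max_left _ _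
  have hsum := Vale.Agent.H73.D41.harmonic_floor_sum w (w - 7) (Nat.sub_le w 7)
  have hCb := hC b hb16
  rw [← hwdef] at hCb
  have hwR : (32 : ℝ) ≤ (w : ℝ) := by exact_mod_cast hw
  have hlog : 0 ≤ Real.log (w : ℝ) := Real.log_nonneg (by linarith)
  have h1 : (S.card : ℝ) ≤ 1306 * (w : ℝ) + 15 +
      8 * ((∑ j ∈ Finset.range (w - 7), (14 * w / (j + 1) + 1) : ℕ) : ℝ) := by
    exact_mod_cast hScard
  have h2 : (S.card : ℝ) ≤ (1427 : ℝ) * (w : ℝ) * (1 + Real.log (w : ℝ)) := by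
    nlinarith
  calc (S.card : ℝ) ≤ (1427 : ℝ) * (w : ℝ) * (1 + Real.log (w : ℝ)) := h2
    _ = ((1427 : ℕ) : ℝ) * ((w : ℕ) : ℝ) * (1 + Real.log ((w : ℕ) : ℝ)) := by norm_num
    _ ≤ C * Real.log (Real.log (b : ℝ)) * Real.log (Real.log (Real.log (b : ℝ))) := hCb

end Vale.Agent.H73
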